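import Mathlib

/-!
# P193: data used by the group half

`PermData` is the group permuting the tracks. A Steinberg family is a family of elements `x a b r`
(`a ≠ b` tracks, `r` in a ring with two equal to zero) with the Steinberg relations.
-/

namespace Vale.Agent.P193.Bh

/-- A finitely presented group of permutations of an infinite set, transitive on tuples of distinct
points, with finitely generated stabilisers of finite sets and no nontrivial finitary element. -/
structure PermData where
  S : Type
  P : Type
  [instGroup : Group P]
  [instAction : MulAction P S]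
  infinite : Infinite S
  fp : Group.IsFinitelyPresented P
  transitive : ∀ (k : ℕ) (f g : Fin k ↪ S), ∃ p : P, ∀ i, p • f i = g i
  stab_fg : ∀ F : Finset S, (fixingSubgroup P (F : Set S)).FG
  no_finitary : ∀ p : P, {x : S | p • x ≠ x}.Finite → p = 1

attribute [instance] PermData.instGroup PermData.instAction

variable {S R : Type*} [Ring R] {G : Type*} [Group G]

/-- Steinberg relations over the index set `S` in characteristic two. -/
structure IsSteinberg (x : S → S → R → G) : Prop where
  add : ∀ a b r s, a ≠ b → x a b (r + s) = x a b r * x a b s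
  chain : ∀ a b c r s, a ≠ b → b ≠ c → a ≠ c →
    x a b r * x b c s * (x a b r)⁻¹ * (x b c s)⁻¹ = x a c (r * s)
  comm : ∀ a b c d r s, a ≠ b → c ≠ d → b ≠ c → a ≠ d → Commute (x a b r) (x c d s)

/-- The matrix of a letter: the identity plus `r` in the entry `(a, b)`. -/
noncomputable def stepVec [DecidableEq S] (a b : S) (r : R) (v : S →₀ R) : S →₀ R :=
  v + Finsupp.single a (r * v b)

/-- The product of the letters of a word. -/
def wordX (x : S → S → R → G) (w : List (S × S × R)) : G :=
  (w.map fun l => x l.1 l.2.1 l.2.2).prod

/-- The action of a word on column vectors. -/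
noncomputable def wordVec [DecidableEq S] (w : List (S × S × R)) (v : S →₀ R) : S →₀ R :=
  w.foldr (fun l u => stepVec l.1 l.2.1 l.2.2 u) v

/-- A word with distinct indices in every letter acting as the identity matrix is trivial. -/
def KillsKernel (x : S → S → R → G) : Prop :=
  ∀ [DecidableEq S] (w : List (S × S × R)), (∀ l ∈ w, l.1 ≠ l.2.1) →
    (∀ v, wordVec w v = v) → wordX x w = 1

/-- Goal of the swindle module. -/
def SwindleGoal : Prop :=
  ∀ {S R G : Type} [Ring R] [Group G] [Infinite S] (x : S → S → R → G),
    (2 : R) = 0 → IsSteinberg x →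
    ∀ (sw : R →+* R) (s₀ s₁ t₀ t₁ : R), t₀ * s₀ = 1 → t₁ * s₁ = 1 → t₀ * s₁ = 0 → t₁ * s₀ = 0 →
      (∀ r, sw r = s₀ * r * t₀ + s₁ * sw r * t₁) → KillsKernel x

end Vale.Agent.P193.Bh
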