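import Vale.Agent.P193.Bh.Interface
import Vale.Agent.P193.Bh.Group.Defs
import Vale.Agent.P193.Fp.Defs
import Vale.Agent.P196.Fp.Events

/-!
# P193: module interfaces of the group half

A group with an action of type A (two-transitive, finitely generated point stabilisers, no
nontrivial finitary element) gives a site: a compact space with the data needed to present the
group of boxes over it. Slots present the uniform exchanges, depths add the change of word length,
and the resulting group of boxes is simple.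
-/

namespace Vale.Agent.P193.Bh

open TopologicalSpace Equiv
open Vale.Agent.P193.Fp
open Vale.Agent.P196.Fp (EventAlgebra)

/-- A finitely presented group with an action of type A. -/
structure TypeA where
  S : Type
  G : Type
  [instGroup : Group G]
  [instAction : MulAction G S]
  infinite : Infinite S
  fp : Group.IsFinitelyPresented G
  trans2 : ∀ a b c d : S, a ≠ b → c ≠ d → ∃ g : G, g • a = c ∧ g • b = d
  stab_fg : ∀ a : S, (MulAction.stabilizer G a).FG
  no_finitary : ∀ g : G, {x : S | g • x ≠ x}.Finite → g = 1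

attribute [instance] TypeA.instGroup TypeA.instAction

/-! ## Events -/

/-- The map respects the partial Boolean operations on the given clopens. -/
structure IsEventHomOn {Y : Type*} [TopologicalSpace Y] (E : EventAlgebra.{0})
    (s : Set (Clopens Y)) (f : Clopens Y → E.B) : Prop where
  com : ∀ U ∈ s, ∀ V ∈ s, E.com (f U) (f V)
  map_top : f ⊤ = E.top
  map_compl : ∀ U ∈ s, f Uᶜ = E.compl (f U)
  map_inf : ∀ U ∈ s, ∀ V ∈ s, f (U ⊓ V) = E.inf (f U) (f V)

/-- An action by automorphisms on an event algebra. -/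
structure IsEventAction {Q : Type*} [Group Q] (E : EventAlgebra.{0}) (σ : Q →* Perm E.B) :
    Prop where
  com : ∀ g a b, E.com a b → E.com (σ g a) (σ g b)
  map_top : ∀ g, σ g E.top = E.top
  map_compl : ∀ g a, σ g (E.compl a) = E.compl (σ g a)
  map_inf : ∀ g a b, E.com a b → σ g (E.inf a b) = E.inf (σ g a) (σ g b)

/-- A finite presentation of the clopens as an algebra of events with an action of `Q`. -/
structure EventPres (Y Q : Type) [TopologicalSpace Y] [Group Q] [MulAction Q Y]
    [ContinuousConstSMul Q Y] where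
  base : Finset (Clopens Y)
  top_mem : ⊤ ∈ base
  compl_mem : ∀ U ∈ base, Uᶜ ∈ base
  inf_mem : ∀ U ∈ base, ∀ V ∈ base, U ⊓ V ∈ base
  generated : ∀ P : Set (Clopens Y), (base : Set (Clopens Y)) ⊆ P → (∀ U ∈ P, Uᶜ ∈ P) →
    (∀ U ∈ P, ∀ V ∈ P, U ⊓ V ∈ P) → (∀ g : Q, ∀ U ∈ P, smulC g U ∈ P) → ∀ U, U ∈ P
  rel : Finset (Q × Clopens Y × Clopens Y)
  rel_true : ∀ x ∈ rel, x.2.1 ∈ base ∧ x.2.2 ∈ base ∧ smulC x.1 x.2.1 = x.2.2
  extend : ∀ (E : EventAlgebra.{0}) (σ : Q →* Perm E.B) (f : Clopens Y → E.B),
    IsEventAction E σ → IsEventHomOn E (base : Set (Clopens Y)) f →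
      (∀ x ∈ rel, σ x.1 (f x.2.1) = f x.2.2) →
        ∃ F : Clopens Y → E.B, IsEventHomOn E Set.univ F ∧
          (∀ g U, F (smulC g U) = σ g (F U)) ∧ ∀ U ∈ base, F U = f U

/-! ## Sites -/

/-- The space, the group and the hypotheses under which boxes form a finitely presented simple
group. -/
structure Site where
  Y : Type
  Q : Type
  [instTop : TopologicalSpace Y]
  [instCompact : CompactSpace Y]
  [instGroup : Group Q]
  [instAction : MulAction Q Y]
  [instCont : ContinuousConstSMul Q Y]
  point : Y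
  separated : ∀ x y : Y, x ≠ y → ∃ U : Clopens Y, x ∈ U ∧ y ∉ U
  fp : Group.IsFinitelyPresented Q
  effective : Effective Y Q
  minimal : ∀ U : Clopens Y, U ≠ ⊥ → ∀ y : Y, ∃ g : Q, g • y ∈ U
  halvable : ∀ U : Clopens Y,
    U = ⊤ ∨ ∃ (W : Clopens Y) (g : Q), Disjoint W (smulC g W) ∧ U = W ⊔ smulC g W
  events : Nonempty (EventPres Y Q)

attribute [instance] Site.instTop Site.instCompact Site.instGroup Site.instAction Site.instCont

/-! ## Slots: exchanges between cones of depth six -/

/-- The sixty-four cones of depth six. -/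
abbrev Child : Type := Fin 6 → Bool

/-- The word of a cone. -/
def Child.word (a : Child) : List Bool := List.ofFn a

variable {Y Q : Type} [TopologicalSpace Y] [Group Q] {G : Type} [Group G]

/-- The subgroup of the letters living on a set of cones. -/
def slotK (D : Perm Child →* G) (kap : Child → Q →* G)
    (el2 : Clopens Y → Q → Child → Child → Child → Child → G) (base : Finset (Clopens Y))
    (qgen : Finset Q) (S : Finset Child) : Subgroup G :=
  Subgroup.closure ({x | ∃ π : Perm Child, (∀ a, a ∉ S → π a = a) ∧ x = D π} ∪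
    {x | ∃ i ∈ S, ∃ g ∈ qgen, x = kap i g} ∪
    {x | ∃ U ∈ base, ∃ a ∈ S, ∃ b ∈ S, ∃ c ∈ S, ∃ d ∈ S,
      [a, b, c, d].Nodup ∧ x = el2 U 1 a b c d})

/-- A group with the uniform exchanges `a → b`, `c → d` (both by `g` over `U`) of pairs of cones of
depth six, the permutations of the cones, and the elements of `Q` on single cones. -/
structure SlotSystem (Y Q : Type) [TopologicalSpace Y] [Group Q] [MulAction Q Y]
    [ContinuousConstSMul Q Y] (G : Type) [Group G] where
  toPerm : G →* Perm (Pt Y)
  D : Perm Child →* G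
  kap : Child → Q →* G
  el2 : Clopens Y → Q → Child → Child → Child → Child → G
  base : Finset (Clopens Y)
  qgen : Finset Q
  toPerm_D : ∀ (π : Perm Child) (a : Child) (y : Y) (t : ℕ → Bool),
    toPerm (D π) (y, app a.word t) = (y, app (π a).word t)
  toPerm_kap : ∀ (i a : Child) (g : Q) (y : Y) (t : ℕ → Bool),
    toPerm (kap i g) (y, app a.word t) = (if a = i then g • y else y, app a.word t)
  toPerm_el2 : ∀ U g a b c d, [a, b, c, d].Nodup → ∀ z, toPerm (el2 U g a b c d) z =
    Box.move ⟨U, g, a.word, b.word⟩ (Box.move ⟨U, g, c.word, d.word⟩ z)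
  el2_sq : ∀ U g a b c d, [a, b, c, d].Nodup → el2 U g a b c d * el2 U g a b c d = 1
  el2_swap : ∀ U g a b c d, [a, b, c, d].Nodup → el2 U g c d a b = el2 U g a b c d
  el2_flip : ∀ U g a b c d, [a, b, c, d].Nodup →
    el2 (smulC g U) g⁻¹ b a d c = el2 U g a b c d
  el2_sup : ∀ U V g a b c d, [a, b, c, d].Nodup → Disjoint U V →
    el2 (U ⊔ V) g a b c d = el2 U g a b c d * el2 V g a b c d
  el2_chain : ∀ U g a b c d e f, [a, b, c, d, e, f].Nodup →
    el2 U g a b c d * el2 U g c d e f = el2 U g a b e f
  el2_tri : ∀ U g h a b c a' b' c', [a, b, c, a', b', c'].Nodup →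
    el2 U g a b a' b' * el2 (smulC g U) h b c b' c' * el2 U g a b a' b' =
      el2 U (h * g) a c a' c'
  el2_comm : ∀ U g a b c d V h a' b' c' d', [a, b, c, d].Nodup → [a', b', c', d'].Nodup →
    Disjoint
      ((⟨U, g, a.word, b.word⟩ : Box Y Q).supp ∪ (⟨U, g, c.word, d.word⟩ : Box Y Q).supp)
      ((⟨V, h, a'.word, b'.word⟩ : Box Y Q).supp ∪ (⟨V, h, c'.word, d'.word⟩ : Box Y Q).supp) →
    Commute (el2 U g a b c d) (el2 V h a' b' c' d')
  el2_equiv : ∀ (π : Perm Child) U g a b c d,
    D π * el2 U g a b c d * (D π)⁻¹ = el2 U g (π a) (π b) (π c) (π d)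
  kap_equiv : ∀ (π : Perm Child) i g, D π * kap i g * (D π)⁻¹ = kap (π i) g
  el2_mem : ∀ U g a b c d, [a, b, c, d].Nodup → ∀ S : Finset Child, a ∈ S → b ∈ S → c ∈ S →
    d ∈ S → 9 ≤ S.card → el2 U g a b c d ∈ slotK D kap el2 base qgen S
  K_comm : ∀ S T : Finset Child, Disjoint S T → ∀ x ∈ slotK D kap el2 base qgen S,
    ∀ y ∈ slotK D kap el2 base qgen T, Commute x y
  qgen_top : Subgroup.closure (qgen : Set Q) = ⊤
  generated : slotK D kap el2 base qgen Finset.univ = ⊤

/-! ## Goals -/

/-- Slots on a finitely presented group over every site. -/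
def SlotsGoal : Prop :=
  ∀ s : Site, ∃ (G : Type) (_ : Group G),
    Group.IsFinitelyPresented G ∧ Nonempty (SlotSystem s.Y s.Q G)

/-- Boxes of all lengths from slots. -/
def DepthsGoal : Prop :=
  ∀ (s : Site) (G : Type) [Group G], Group.IsFinitelyPresented G → SlotSystem s.Y s.Q G →
    ∃ (G' : Type) (_ : Group G'),
      Group.IsFinitelyPresented G' ∧ Nonempty (BoxSystem s.Y s.Q G')

/-- The group of boxes is simple and contains the group of the site. -/
def SimpleGoal : Prop :=
  ∀ (s : Site) (G : Type) [Group G], Group.IsFinitelyPresented G → BoxSystem s.Y s.Q G →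
    EmbedsFPSimple s.Q

/-- The site of a group of type A. -/
def LampGoal : Prop := ∀ T : TypeA, ∃ (s : Site) (f : T.G →* s.Q), Function.Injective f

/-- Thompson's group on the words ending in zeros, from the boxes over a point. -/
def PointGoal : Prop := SlotsGoal → DepthsGoal → Nonempty PermData

/-- The linear group over a seed has an action of type A and contains the units given. -/
def LinearGoal : Prop :=
  PermData → ∀ (S : Seed) (G : Type) [Group G], Group.FG G →
    ∀ u : G →* S.Aˣ, Function.Injective u → ∃ (T : TypeA) (f : G →* T.G), Function.Injective f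

theorem EmbedsFPSimple.of_injective {G H : Type} [Group G] [Group H] (f : G →* H)
    (hf : Function.Injective f) (h : EmbedsFPSimple H) : EmbedsFPSimple G := by
  obtain ⟨K, iK, e, he, hs, hp⟩ := h
  exact ⟨K, iK, e.comp f, he.comp hf, hs, hp⟩

/-- A group with an action of type A embeds in a finitely presented simple group. -/
theorem embedsFPSimple_of_typeA (hl : LampGoal) (hs : SlotsGoal) (hd : DepthsGoal)
    (hsi : SimpleGoal) (T : TypeA) : EmbedsFPSimple T.G := by
  obtain ⟨s, f, hf⟩ := hl T
  obtain ⟨G, iG, hG, ⟨σ⟩⟩ := hs s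
  obtain ⟨G', iG', hG', ⟨β⟩⟩ := hd s G hG σ
  exact (hsi s G' hG' β).of_injective f hf

theorem groupHalf_of_goals (hl : LampGoal) (hs : SlotsGoal) (hd : DepthsGoal) (hsi : SimpleGoal)
    (hp : PointGoal) (hli : LinearGoal) : GroupHalf := by
  intro S G _ hG u hu
  obtain ⟨D⟩ := hp hs hd
  obtain ⟨T, f, hf⟩ := hli D S G hG u hu
  exact (embedsFPSimple_of_typeA hl hs hd hsi T).of_injective f hf

end Vale.Agent.P193.Bh
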