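import Vale.Agent.P193.Bh.Group.Interface2
import Vale.Agent.P193.Fp.Kernel

/-!
# P193: the group of boxes is simple and contains the group of the site
-/

namespace Vale.Agent.P193.Bh

open TopologicalSpace
open Vale.Agent.P193.Fp

variable {Y Q : Type} [TopologicalSpace Y] [Group Q] [MulAction Q Y] [ContinuousConstSMul Q Y]
  {G : Type} [Group G] (S : BoxSystem Y Q G)

theorem app_cases (s : ℕ → Bool) : ∃ a b t, s = app [a, b] t :=
  ⟨s 0, s 1, sdrop 2 s, by
    funext n
    match n with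
    | 0 => rfl
    | 1 => rfl
    | n + 2 => simp [app, scons, sdrop, Nat.add_comm]⟩

theorem move_away {b : Box Y Q} {y : Y} {p : List Bool} (t : ℕ → Bool)
    (h1 : ¬p <+: b.p ∧ ¬b.p <+: p) (h2 : ¬p <+: b.q ∧ ¬b.q <+: p) :
    b.move (y, app p t) = (y, app p t) := by
  have hz : ((y, app p t) : Pt Y) ∈ cyl (Set.univ : Set Y) p := mk_mem_cyl (Set.mem_univ y) t
  refine Box.move_out fun h => ?_
  rcases h with h | h
  · exact Set.disjoint_left.1 (disjoint_cyl_word h1.1 h1.2 _ _) hz h
  · exact Set.disjoint_left.1 (disjoint_cyl_word h2.1 h2.2 _ _) hz h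

/-- `g⁻¹` on the cone `c`, `g` on the cone `d`. -/
def diag (g : Q) (c d : List Bool) : G := S.el ⟨⊤, g, c, d⟩ * S.el ⟨⊤, 1, c, d⟩

theorem valid_top {g : Q} {c d : List Bool} (h : ¬c <+: d ∧ ¬d <+: c) :
    Box.Valid (⟨⊤, g, c, d⟩ : Box Y Q) := disjoint_cyl_word h.1 h.2 _ _

theorem diag_spec (g : Q) {c d : List Bool} (h : ¬c <+: d ∧ ¬d <+: c) (y : Y) :
    (∀ t, S.toPerm (diag S g c d) (y, app c t) = (g⁻¹ • y, app c t)) ∧
    (∀ t, S.toPerm (diag S g c d) (y, app d t) = (g • y, app d t)) ∧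
    ∀ p t, ¬p <+: c ∧ ¬c <+: p → ¬p <+: d ∧ ¬d <+: p →
      S.toPerm (diag S g c d) (y, app p t) = (y, app p t) := by
  have v1 : Box.Valid (⟨⊤, 1, c, d⟩ : Box Y Q) := valid_top h
  have vg : Box.Valid (⟨⊤, g, c, d⟩ : Box Y Q) := valid_top h
  refine ⟨fun t => ?_, fun t => ?_, fun p t h1 h2 => ?_⟩ <;>
    rw [diag, map_mul, Equiv.Perm.mul_apply, S.toPerm_el _ v1, S.toPerm_el _ vg]
  · rw [Box.move_dom (⟨⊤, 1, c, d⟩ : Box Y Q) (y := y) trivial t, one_smul,
      Box.move_cod vg (y := y) trivial t]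
  · rw [Box.move_cod v1 (y := y) trivial t, inv_one, one_smul,
      Box.move_dom (⟨⊤, g, c, d⟩ : Box Y Q) (y := y) trivial t]
  · rw [move_away (b := (⟨⊤, 1, c, d⟩ : Box Y Q)) t h1 h2,
      move_away (b := (⟨⊤, g, c, d⟩ : Box Y Q)) t h1 h2]

/-- An element of `Q` on the cone `00`. -/
def corner (g : Q) : G := diag S g [true, false] [false] * diag S g [false, true] [true, false]

theorem corner_spec (g : Q) (y : Y) (a b : Bool) (t : ℕ → Bool) :
    S.toPerm (corner S g) (y, app [a, b] t) =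
      (if a = false ∧ b = false then g • y else y, app [a, b] t) := by
  have e : ∀ (b' : Bool) t', app [false, b'] t' = app [false] (app [b'] t') := fun b' t' => rfl
  obtain ⟨A1, A2, A3⟩ := diag_spec S g (c := [true, false]) (d := [false]) (by simp) y
  obtain ⟨B1, B2, B3⟩ := diag_spec S g (c := [false, true]) (d := [true, false]) (by simp) y
  rw [corner, map_mul, Equiv.Perm.mul_apply]
  cases a <;> cases b
  · rw [B3 [false, false] t (by simp) (by simp), e, A2]; simp
  · rw [B1, e]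
    rw [(diag_spec S g (c := [true, false]) (d := [false]) (by simp) (g⁻¹ • y)).2.1]
    simp
  · rw [B2, (diag_spec S g (c := [true, false]) (d := [false]) (by simp) (g • y)).1]
    simp
  · rw [B3 [true, true] t (by simp) (by simp), A3 [true, true] t (by simp) (by simp)]; simp

include S in
/-- The embedding of `Q`. -/
theorem exists_hom (hE : Effective Y Q) [CompactSpace Y] (y₀ : Y) :
    ∃ f : Q →* G, Function.Injective f := by
  have hI := S.toPerm_injective hE
  have hmul : ∀ g h, corner S (g * h) = corner S g * corner S h := fun g h => by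
    refine hI (Equiv.ext fun z => ?_)
    obtain ⟨y, s⟩ := z
    obtain ⟨a, b, t, rfl⟩ := app_cases s
    rw [map_mul, Equiv.Perm.mul_apply, corner_spec, corner_spec, corner_spec]
    split_ifs <;> simp [mul_smul]
  refine ⟨MonoidHom.mk' (corner S) hmul, (injective_iff_map_eq_one _).2 fun g hg => ?_⟩
  refine hE g ⊤ (fun h => ?_) fun y _ => ?_
  · have : y₀ ∈ (⊥ : Clopens Y) := h ▸ trivial
    exact this
  · have h1 : corner S g = 1 := hg
    have h := corner_spec S g y false false (fun _ => false)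
    rw [h1, map_one, Equiv.Perm.one_apply] at h
    simpa using (congrArg Prod.fst h).symm

/-- A normal subgroup with a nontrivial element has the exchanges of two cones over a small set. -/
theorem exists_seed (hE : Effective Y Q) [CompactSpace Y]
    (hsep : ∀ x y : Y, x ≠ y → ∃ U : Clopens Y, x ∈ U ∧ y ∉ U) {x : G} (hx : x ≠ 1) :
    ∃ (V : Clopens Y) (g : Q) (p q : List Bool), (∃ y, y ∈ V) ∧
      Maps (S.toPerm x) V p g q ∧ Disjoint (cyl (V : Set Y) p) (cyl (smulC g V : Set Y) q) := by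
  obtain ⟨⟨y, s⟩, hz⟩ : ∃ z, S.toPerm x z ≠ z := by
    by_contra! h
    exact hx (S.toPerm_injective hE (by rw [map_one]; exact Equiv.ext h))
  obtain ⟨U, n, g, q, hy, hM⟩ := S.affine x y s
  have hzz : S.toPerm x (y, s) = (g • y, app q (sdrop n s)) := by
    conv_lhs => rw [← app_stake n s]
    exact hM y hy _
  rw [hzz] at hz
  by_cases hg : g • y = y
  · have hs : app q (sdrop n s) ≠ s := fun h => hz (by rw [hg, h])
    obtain ⟨k, hk⟩ := Function.ne_iff.1 hs
    refine ⟨U, g, stake n s ++ stake (k + 1) (sdrop n s), q ++ stake (k + 1) (sdrop n s), ⟨y, hy⟩,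
      hM.mono le_rfl _, disjoint_cyl_iff.2 (Or.inr ?_)⟩
    set p' := stake n s ++ stake (k + 1) (sdrop n s) with hp'
    set q' := q ++ stake (k + 1) (sdrop n s) with hq'
    have e1 : s = app p' (sdrop (k + 1) (sdrop n s)) := by
      rw [hp', app_append, app_stake, app_stake]
    have e2 : app q (sdrop n s) = app q' (sdrop (k + 1) (sdrop n s)) := by
      rw [hq', app_append, app_stake]
    have key : ∀ (l : List Bool) (t : ℕ → Bool) (i : ℕ) (h : i < l.length), app l t i = l[i] := by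
      intro l t i h
      induction l generalizing i with
      | nil => simp at h
      | cons b l ih =>
        match i with
        | 0 => rfl
        | i + 1 =>
          rw [app_cons]
          simpa [scons] using ih i (by simpa using h)
    have lp : k < p'.length := by simp [hp']; omega
    have lq : k < q'.length := by simp [hq']; omega
    have hne : p'[k] ≠ q'[k] := by
      have a1 := key p' (sdrop (k + 1) (sdrop n s)) k lp
      have a2 := key q' (sdrop (k + 1) (sdrop n s)) k lq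
      rw [← e1] at a1
      rw [← e2] at a2
      rw [← a1, ← a2]
      exact fun h => hk h.symm
    exact ⟨fun h => hne (h.getElem lp), fun h => hne (h.getElem lq).symm⟩
  · obtain ⟨W, hW, hW'⟩ := hsep y (g • y) (Ne.symm hg)
    refine ⟨U ⊓ W ⊓ smulC g⁻¹ Wᶜ, g, stake n s, q,
      ⟨y, ⟨hy, hW⟩, show g⁻¹⁻¹ • y ∉ W by simpa using hW'⟩, hM.base (inf_le_left.trans inf_le_left),
      disjoint_cyl_base ?_ _ _⟩
    refine Set.disjoint_left.2 fun w hw hw' => ?_
    have h1 : w ∈ W := hw.1.2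
    have h2 : g⁻¹⁻¹ • g⁻¹ • w ∉ W := hw'.2
    exact h2 (by simpa using h1)

variable [CompactSpace Y]

/-- Exchanges of two cones over `W`. -/
def swp (W : Clopens Y) (a b : List Bool) : G := S.el ⟨W, 1, a, b⟩

omit [CompactSpace Y] in
theorem valid_one {W : Clopens Y} {a b : List Bool} (h : ¬a <+: b ∧ ¬b <+: a) :
    Box.Valid (⟨W, 1, a, b⟩ : Box Y Q) := disjoint_cyl_word h.1 h.2 _ _

omit [CompactSpace Y] in
theorem swp_symm {W : Clopens Y} {a b : List Bool} (h : ¬a <+: b ∧ ¬b <+: a) :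
    swp S W b a = swp S W a b := by
  have := S.el_symm ⟨W, 1, a, b⟩ (valid_one h)
  simpa [swp] using this

theorem seed_mem (hE : Effective Y Q) {N : Subgroup G} [hN : N.Normal] {x : G} (hx : x ∈ N)
    {V : Clopens Y} {g : Q} {p q : List Bool} (hM : Maps (S.toPerm x) V p g q)
    (hd : Disjoint (cyl (V : Set Y) p) (cyl (smulC g V : Set Y) q)) (W : Clopens Y) (hW : W ≤ V)
    {a b : List Bool} (hab : ¬a <+: b ∧ ¬b <+: a) : swp S W (p ++ a) (p ++ b) ∈ N := by
  have inc : ∀ (u : List Bool) {a b : List Bool}, ¬a <+: b ∧ ¬b <+: a →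
      ¬u ++ a <+: u ++ b ∧ ¬u ++ b <+: u ++ a := fun u a b h => by
    rwa [List.prefix_append_right_inj, List.prefix_append_right_inj]
  -- double exchanges
  have dbl : ∀ a b : List Bool, ¬a <+: b ∧ ¬b <+: a →
      swp S (smulC g W) (q ++ a) (q ++ b) * swp S W (p ++ a) (p ++ b) ∈ N := by
    intro a b h
    have hv : Box.Valid (⟨W, 1, p ++ a, p ++ b⟩ : Box Y Q) := valid_one (inc p h)
    have h1 := hM.mono hW a
    have h2 : Maps (S.toPerm x) (smulC (1 : Q) W) (p ++ b) g (q ++ b) := by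
      rw [smulC_one]; exact hM.mono hW b
    have hc := S.conj hE x _ hv g g _ _ h1 h2
    have hi : Box.image (⟨W, 1, p ++ a, p ++ b⟩ : Box Y Q) g g (q ++ a) (q ++ b) =
        ⟨smulC g W, 1, q ++ a, q ++ b⟩ := by simp [Box.image]
    rw [hi] at hc
    show S.el ⟨smulC g W, 1, q ++ a, q ++ b⟩ * S.el ⟨W, 1, p ++ a, p ++ b⟩ ∈ N
    rw [← hc]
    have : x * S.el ⟨W, 1, p ++ a, p ++ b⟩ * x⁻¹ * S.el ⟨W, 1, p ++ a, p ++ b⟩ =
        x * (S.el ⟨W, 1, p ++ a, p ++ b⟩ * x⁻¹ * (S.el ⟨W, 1, p ++ a, p ++ b⟩)⁻¹) := by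
      rw [S.el_inv hv]; group
    rw [this]
    exact N.mul_mem hx (hN.conj_mem _ (N.inv_mem hx) _)
  -- three cycles
  have three : ∀ a b c : List Bool, ¬a <+: b ∧ ¬b <+: a → ¬a <+: c ∧ ¬c <+: a →
      ¬b <+: c ∧ ¬c <+: b → swp S W (p ++ a) (p ++ b) * swp S W (p ++ a) (p ++ c) ∈ N := by
    intro a b c hab hac hbc
    have vA : Box.Valid (⟨W, 1, p ++ a, p ++ c⟩ : Box Y Q) := valid_one (inc p hac)
    have vB : Box.Valid (⟨smulC g W, 1, q ++ a, q ++ c⟩ : Box Y Q) := valid_one (inc q hac)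
    have vC : Box.Valid (⟨W, 1, p ++ b, p ++ c⟩ : Box Y Q) := valid_one (inc p hbc)
    have sub : ∀ {U U' : Clopens Y} {u u' : List Bool}, U ≤ U' →
        cyl (U : Set Y) (u' ++ u) ⊆ cyl (U' : Set Y) u' :=
      fun h => cyl_subset (fun _ hy => h hy) ⟨_, rfl⟩
    have dC : (⟨W, 1, p ++ b, p ++ c⟩ : Box Y Q).supp ⊆ cyl (V : Set Y) p :=
      Set.union_subset (sub hW) (by simpa [Box.cod] using sub hW)
    have dB : (⟨smulC g W, 1, q ++ a, q ++ c⟩ : Box Y Q).supp ⊆ cyl (smulC g V : Set Y) q :=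
      Set.union_subset (sub (smulC_mono g hW))
        (by simpa [Box.cod] using sub (smulC_mono g hW))
    have cm := S.el_comm _ _ vC vB (Set.disjoint_of_subset dC dB hd)
    have tri : swp S W (p ++ b) (p ++ c) * swp S W (p ++ a) (p ++ c) *
        swp S W (p ++ b) (p ++ c) = swp S W (p ++ a) (p ++ b) := by
      have hcb := inc p hbc
      have hca := inc p hac
      have hba := inc p hab
      have := S.el_tri W 1 1 (p ++ b) (p ++ c) (p ++ a)
        (by simpa using disjoint_cyl_word hcb.1 hcb.2 (W : Set Y) (W : Set Y))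
        (by simpa using disjoint_cyl_word hca.2 hca.1 (W : Set Y) (W : Set Y))
        (by simpa using disjoint_cyl_word hba.2 hba.1 (W : Set Y) (W : Set Y))
      simp only [smulC_one, mul_one] at this
      rw [swp_symm S (inc p hab) |>.symm, show swp S W (p ++ a) (p ++ c) = swp S W (p ++ c) (p ++ a)
        from (swp_symm S (inc p hac)).symm]
      exact this
    set C := swp S W (p ++ b) (p ++ c) with hC
    set A := swp S W (p ++ a) (p ++ c) with hA
    set B := swp S (smulC g W) (q ++ a) (q ++ c) with hB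
    have hE' : B * A ∈ N := dbl a c hac
    have h3 : C * (B * A) * C⁻¹ * (B * A)⁻¹ ∈ N :=
      N.mul_mem (hN.conj_mem _ hE' _) (N.inv_mem hE')
    have hCi : C⁻¹ = C := S.el_inv vC
    have hAi : A⁻¹ = A := S.el_inv vA
    have hBi : B⁻¹ = B := S.el_inv vB
    have hCB : C * B = B * C := cm.eq
    have hid : B⁻¹ * (C * (B * A) * C⁻¹ * (B * A)⁻¹) * B = C * A * C * A := by
      rw [mul_inv_rev, hCi, hAi]
      calc B⁻¹ * (C * (B * A) * C * (A * B⁻¹)) * B = B⁻¹ * (C * B) * A * C * A := by group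
        _ = B⁻¹ * (B * C) * A * C * A := by rw [hCB]
        _ = C * A * C * A := by group
    have h4 := hN.conj_mem _ h3 B⁻¹
    rw [inv_inv, hid] at h4
    rw [← tri]
    exact h4
  -- one exchange
  have split : swp S W (p ++ a) (p ++ b) = swp S W (p ++ (a ++ [false])) (p ++ (b ++ [false])) *
      swp S W (p ++ (a ++ [true])) (p ++ (b ++ [true])) := by
    have := S.el_word W 1 (p ++ a) (p ++ b) (valid_one (inc p hab))
    simpa [swp, List.append_assoc] using this
  have ext : ∀ {a b : List Bool} (u v : List Bool), ¬a <+: b ∧ ¬b <+: a →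
      ¬a ++ u <+: b ++ v ∧ ¬b ++ v <+: a ++ u := by
    intro a b u v h
    constructor
    · intro hp
      exact h.1 ((List.prefix_or_prefix_of_prefix ((List.prefix_append a u).trans hp)
        (List.prefix_append b v)).resolve_right h.2)
    · intro hp
      exact h.2 ((List.prefix_or_prefix_of_prefix ((List.prefix_append b v).trans hp)
        (List.prefix_append a u)).resolve_right h.1)
  have hbool : ∀ a : List Bool, ¬a ++ [false] <+: a ++ [true] ∧ ¬a ++ [true] <+: a ++ [false] :=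
    fun a => by simp
  set a0 := a ++ [false]
  set a1 := a ++ [true]
  set b0 := b ++ [false]
  set b1 := b ++ [true]
  have k1 : swp S W (p ++ b0) (p ++ a0) * swp S W (p ++ b0) (p ++ a1) ∈ N :=
    three b0 a0 a1 (ext _ _ hab.symm) (ext _ _ hab.symm) (hbool a)
  have k2 : swp S W (p ++ a1) (p ++ b0) * swp S W (p ++ a1) (p ++ b1) ∈ N :=
    three a1 b0 b1 (ext _ _ hab) (ext _ _ hab) (hbool b)
  rw [split, swp_symm S (inc p (ext [false] [false] hab.symm))]
  rw [swp_symm S (inc p (ext [true] [false] hab))] at k1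
  have hsq : swp S W (p ++ a1) (p ++ b0) * swp S W (p ++ a1) (p ++ b0) = 1 :=
    S.el_sq _ (valid_one (inc p (ext [true] [false] hab)))
  have := N.mul_mem k1 k2
  rwa [mul_assoc, ← mul_assoc (swp S W (p ++ a1) (p ++ b0)), hsq, one_mul] at this

/-- Two of the eight children of `p` avoid two long words. -/
theorem exists_children (p u v : List Bool) (hu : p.length + 3 ≤ u.length)
    (hv : p.length + 3 ≤ v.length) :
    ∃ a b : List Bool, (¬a <+: b ∧ ¬b <+: a) ∧
      (¬p ++ a <+: u ∧ ¬u <+: p ++ a) ∧ (¬p ++ a <+: v ∧ ¬v <+: p ++ a) ∧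
      (¬p ++ b <+: v ∧ ¬v <+: p ++ b) := by
  have fin : ∀ A B : List Bool, A.length = 3 → B.length = 3 →
      ∃ a b : List Bool, a.length = 3 ∧ b.length = 3 ∧ a ≠ b ∧ a ≠ A ∧ a ≠ B ∧ b ≠ B := by
    intro A B hA hB
    match A, B, hA, hB with
    | [x, y, z], [x', y', z'], _, _ =>
      by_cases h : x = x'
      · subst h
        refine ⟨[!x, y, z], [!x, !y, z], rfl, rfl, ?_, ?_, ?_, ?_⟩ <;> simp
      · refine ⟨[x, !y, z], [x, y, z], rfl, rfl, ?_, ?_, ?_, ?_⟩ <;> simp [h]
  obtain ⟨a, b, la, lb, hab, haA, haB, hbB⟩ :=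
    fin ((u.drop p.length).take 3) ((v.drop p.length).take 3) (by simp; omega) (by simp; omega)
  have bad : ∀ (c w : List Bool), c.length = 3 → p.length + 3 ≤ w.length →
      c ≠ (w.drop p.length).take 3 → ¬p ++ c <+: w ∧ ¬w <+: p ++ c := by
    intro c w lc lw hne
    have h1 : ¬p ++ c <+: w := by
      rintro ⟨r, rfl⟩
      exact hne (by rw [List.append_assoc, List.drop_left, List.take_left' lc])
    exact ⟨h1, fun h => h1 (by rw [h.eq_of_length_le (by simp; omega)])⟩
  refine ⟨a, b, ⟨fun h => hab (h.eq_of_length_le (by omega)),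
    fun h => hab (h.eq_of_length_le (by omega)).symm⟩, bad a u la hu haA, bad a v la hv haB,
    bad b v lb hv hbB⟩

include S in
/-- The group of boxes is simple. -/
theorem isSimpleGroup (hE : Effective Y Q) (y₀ : Y)
    (hsep : ∀ x y : Y, x ≠ y → ∃ U : Clopens Y, x ∈ U ∧ y ∉ U)
    (hmin : ∀ U : Clopens Y, U ≠ ⊥ → ∀ y : Y, ∃ g : Q, g • y ∈ U) : IsSimpleGroup G := by
  have hv : Box.Valid (⟨⊤, 1, [false], [true]⟩ : Box Y Q) := valid_one (by simp)
  have : Nontrivial G := by
    refine ⟨S.el ⟨⊤, 1, [false], [true]⟩, 1, fun h => ?_⟩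
    have := S.toPerm_el _ hv (y₀, app [false] fun _ => false)
    rw [h, map_one, Equiv.Perm.one_apply, Box.move_dom (⟨⊤, 1, [false], [true]⟩ : Box Y Q) trivial] at this
    exact absurd (congrFun (congrArg Prod.snd this) 0) (by simp [scons])
  refine ⟨fun N hN => (em (N = ⊥)).imp_right fun hbot => ?_⟩
  obtain ⟨x, hxN, hx⟩ := N.ne_bot_iff_exists_ne_one.1 hbot |> fun ⟨⟨x, h⟩, h'⟩ =>
    (⟨x, h, fun e => h' (Subtype.ext e)⟩ : ∃ x, x ∈ N ∧ x ≠ 1)
  obtain ⟨V, g, p, q, ⟨yV, hyV⟩, hM, hd⟩ := exists_seed S hE hsep hx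
  have hV0 : V ≠ ⊥ := clopens_ne_bot.2 ⟨yV, hyV⟩
  refine top_unique (S.generated ▸ (Subgroup.closure_le _).2 ?_)
  rintro _ ⟨b, hb, rfl⟩
  have key : ∀ U r, U ≤ b.U → S.el (b.sub U r) ∈ N := by
    refine box_induction (fun U r => U ≤ b.U → S.el (b.sub U r) ∈ N) ?_ ?_ ?_ ?_
    · intro r _
      rw [Box.sub, S.el_bot]
      exact N.one_mem
    · intro U U' r hdj hU hU' hle
      rw [Box.sub, S.el_sup U U' _ _ _ hdj (hb.sub hle r)]
      exact N.mul_mem (hU (le_sup_left.trans hle)) (hU' (le_sup_right.trans hle))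
    · intro U r h0 h1 hle
      rw [Box.sub, S.el_word U _ _ _ (hb.sub hle r)]
      simp only [List.append_assoc]
      exact N.mul_mem (h0 hle) (h1 hle)
    · intro y s
      obtain ⟨h, hh⟩ := hmin V hV0 y
      refine ⟨smulC h⁻¹ V, p.length + 3, by simpa using hh, fun U hU r hr hle => ?_⟩
      have lr : p.length + 3 ≤ r.length := by simpa using hr.length_le
      have hUV : smulC h U ≤ V := by
        intro w hw
        simpa using hU hw
      obtain ⟨a, c, hac, hau, hav, hcv⟩ :=
        exists_children p (b.p ++ r) (b.q ++ r) (by simp; omega) (by simp; omega)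
      set u := b.p ++ r
      set v := b.q ++ r
      have hw := seed_mem S hE hxN hM hd (smulC h U) hUV hac.symm
      have hpac : ¬p ++ c <+: p ++ a ∧ ¬p ++ a <+: p ++ c := by
        rw [List.prefix_append_right_inj, List.prefix_append_right_inj]; exact hac.symm
      -- second end
      have t2 := S.el_tri (smulC b.g U) (h * b.g⁻¹) 1 v (p ++ c) (p ++ a)
        (disjoint_cyl_word hcv.2 hcv.1 _ _) (disjoint_cyl_word hpac.1 hpac.2 _ _)
        (disjoint_cyl_word hav.2 hav.1 _ _)
      have eU : smulC (h * b.g⁻¹) (smulC b.g U) = smulC h U := by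
        rw [smulC_smulC, inv_mul_cancel_right]
      rw [eU, one_mul] at t2
      have m2 : S.el ⟨smulC b.g U, h * b.g⁻¹, v, p ++ a⟩ ∈ N := by
        rw [← t2]
        have v2 : Box.Valid (⟨smulC b.g U, h * b.g⁻¹, v, p ++ c⟩ : Box Y Q) :=
          disjoint_cyl_word hcv.2 hcv.1 _ _
        have h := hN.conj_mem _ hw (S.el ⟨smulC b.g U, h * b.g⁻¹, v, p ++ c⟩)
        rw [S.el_inv v2] at h
        exact h
      -- first end
      have t1 := S.el_tri U h (b.g * h⁻¹) u (p ++ a) v
        (disjoint_cyl_word hau.2 hau.1 _ _) (disjoint_cyl_word hav.1 hav.2 _ _) ?_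
      · rw [inv_mul_cancel_right] at t1
        show S.el ⟨U, b.g, u, v⟩ ∈ N
        rw [← t1]
        have v1 : Box.Valid (⟨U, h, u, p ++ a⟩ : Box Y Q) :=
          disjoint_cyl_word hau.2 hau.1 _ _
        suffices hmid : S.el ⟨smulC h U, b.g * h⁻¹, p ++ a, v⟩ ∈ N by
          have hh' := hN.conj_mem _ hmid (S.el ⟨U, h, u, p ++ a⟩)
          rw [S.el_inv v1] at hh'
          exact hh'
        have vf : Box.Valid (⟨smulC b.g U, h * b.g⁻¹, v, p ++ a⟩ : Box Y Q) :=
          disjoint_cyl_word hav.2 hav.1 _ _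
        have := S.el_symm _ vf
        rw [eU] at this
        simp only [mul_inv_rev, inv_inv] at this
        rw [this]
        exact m2
      · rw [inv_mul_cancel_right]
        exact hb.sub hle r
  have := key b.U [] le_rfl
  simpa [Box.sub] using this

theorem simpleGoal : SimpleGoal := by
  intro s G _ hfp S
  obtain ⟨f, hf⟩ := exists_hom S s.effective s.point
  exact ⟨G, ‹Group G›, f, hf, isSimpleGroup S s.effective s.point s.separated s.minimal, hfp⟩

end Vale.Agent.P193.Bh
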