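import Vale.Agent.P193.Bh.Group.Defs

/-!
# P193: the swindle kills the kernel of a Steinberg family

If the ring has a swindle, a word in a Steinberg family over an infinite index set that acts as the
identity matrix is trivial.
-/

namespace Vale.Agent.P193.Bh

variable {S R G : Type*} [Ring R] [Group G] {x : S → S → R → G}

namespace IsSteinberg

variable (hx : IsSteinberg x)
include hx

lemma map_zero {a b : S} (h : a ≠ b) : x a b 0 = 1 := by
  have := hx.add a b 0 0 h
  rw [add_zero] at this
  exact mul_left_cancel (this.symm.trans (mul_one _).symm)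

lemma inv_eq (h2 : (2 : R) = 0) {a b : S} (h : a ≠ b) (r : R) : (x a b r)⁻¹ = x a b r := by
  refine inv_eq_of_mul_eq_one_right ?_
  rw [← hx.add a b r r h, ← two_mul, h2, zero_mul, hx.map_zero h]

/-- Conjugation along a chain changes a column. -/
lemma conj_left {a b c : S} (r s : R) (hab : a ≠ b) (hbc : b ≠ c) (hac : a ≠ c) :
    x a b r * x b c s * (x a b r)⁻¹ = x a c (r * s) * x b c s := by
  rw [← hx.chain a b c r s hab hbc hac]
  group

/-- Conjugation along a chain changes a row. -/
lemma conj_right (h2 : (2 : R) = 0) {a b c : S} (r s : R) (hab : a ≠ b) (hbc : b ≠ c)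
    (hac : a ≠ c) : x b c s * x a b r * (x b c s)⁻¹ = x a c (r * s) * x a b r := by
  have h := congrArg (·⁻¹) (hx.chain a b c r s hab hbc hac)
  rw [hx.inv_eq h2 hac] at h
  rw [← h]
  group

lemma comm_of_mul_eq_zero {a b c d : S} (r s : R) (hab : a ≠ b) (hcd : c ≠ d)
    (hnot : ¬(b = c ∧ a = d)) (h₁ : b = c → r * s = 0) (h₂ : a = d → s * r = 0) :
    Commute (x a b r) (x c d s) := by
  by_cases hbc : b = c
  · subst hbc
    have had : a ≠ d := fun h => hnot ⟨rfl, h⟩
    have h := hx.chain a b d r s hab hcd had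
    rw [h₁ rfl, hx.map_zero had] at h
    exact commutatorElement_eq_one_iff_commute.1 h
  · by_cases had : a = d
    · subst had
      have h := hx.chain c a b s r hcd hab (Ne.symm hbc)
      rw [h₂ rfl, hx.map_zero (Ne.symm hbc)] at h
      exact (commutatorElement_eq_one_iff_commute.1 h).symm
    · exact hx.comm a b c d r s hab hcd hbc had

end IsSteinberg

/-- The letters avoid the index `c`. -/
def Avoids (c : S) (w : List (S × S × R)) : Prop :=
  ∀ l ∈ w, l.1 ≠ l.2.1 ∧ l.1 ≠ c ∧ l.2.1 ≠ c

lemma wordX_cons (l : S × S × R) (w : List (S × S × R)) :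
    wordX x (l :: w) = x l.1 l.2.1 l.2.2 * wordX x w := by
  simp [wordX]

lemma wordX_map_mul {α : Type*} (p q : α → G) (w : List α)
    (h : ∀ i ∈ w, ∀ j ∈ w, Commute (p i) (q j)) :
    (w.map fun i => p i * q i).prod = (w.map p).prod * (w.map q).prod := by
  induction w with
  | nil => simp
  | cons i w ih =>
    have hc : Commute (w.map p).prod (q i) := by
      refine Commute.list_prod_left _ _ fun y hy => ?_
      obtain ⟨j, hj, rfl⟩ := List.mem_map.1 hy
      exact h j (List.mem_cons_of_mem _ hj) i (List.mem_cons_self ..)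
    simp only [List.map_cons, List.prod_cons]
    rw [ih fun a ha b hb => h a (List.mem_cons_of_mem _ ha) b (List.mem_cons_of_mem _ hb)]
    rw [mul_assoc, ← mul_assoc (q i), ← hc.eq]
    group

lemma conj_list_prod (P : G) {α : Type*} (p q : α → G) (w : List α)
    (h : ∀ i ∈ w, P * p i * P⁻¹ = q i) :
    P * (w.map p).prod * P⁻¹ = (w.map q).prod := by
  induction w with
  | nil => simp
  | cons i w ih =>
    simp only [List.map_cons, List.prod_cons]
    rw [← h i (List.mem_cons_self ..), ← ih fun j hj => h j (List.mem_cons_of_mem _ hj)]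
    group

section Action

variable [DecidableEq S]

lemma stepVec_add (a b : S) (r : R) (v v' : S →₀ R) :
    stepVec a b r (v + v') = stepVec a b r v + stepVec a b r v' := by
  simp only [stepVec, Finsupp.add_apply, mul_add, Finsupp.single_add]
  abel

lemma wordVec_add (w : List (S × S × R)) (v v' : S →₀ R) :
    wordVec w (v + v') = wordVec w v + wordVec w v' := by
  induction w with
  | nil => rfl
  | cons l w ih => simp only [wordVec, List.foldr_cons] at ih ⊢; rw [ih, stepVec_add]

lemma stepVec_self (h2 : (2 : R) = 0) {a b : S} (h : a ≠ b) (r : R) (v : S →₀ R) :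
    stepVec a b r (stepVec a b r v) = v := by
  simp only [stepVec, Finsupp.add_apply, Finsupp.single_eq_of_ne (Ne.symm h), add_zero]
  rw [add_assoc, ← Finsupp.single_add, ← two_mul, h2, zero_mul, Finsupp.single_zero, add_zero]

lemma wordVec_reverse (h2 : (2 : R) = 0) (w : List (S × S × R)) (hd : ∀ l ∈ w, l.1 ≠ l.2.1)
    (v : S →₀ R) : wordVec w.reverse (wordVec w v) = v := by
  induction w generalizing v with
  | nil => rfl
  | cons l w ih =>
    simp only [wordVec, List.reverse_cons, List.foldr_append, List.foldr_cons, List.foldr_nil]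
      at ih ⊢
    rw [stepVec_self h2 (hd l (List.mem_cons_self ..))]
    exact ih (fun j hj => hd j (List.mem_cons_of_mem _ hj)) v

lemma wordVec_mapRange_mul (w : List (S × S × R)) (v : S →₀ R) (s : R) :
    wordVec w (v.mapRange (· * s) (zero_mul s)) =
      (wordVec w v).mapRange (· * s) (zero_mul s) := by
  induction w with
  | nil => rfl
  | cons l w ih =>
    simp only [wordVec, List.foldr_cons] at ih ⊢
    rw [ih]
    simp only [stepVec, Finsupp.mapRange_apply]
    rw [Finsupp.mapRange_add (fun p q => add_mul p q s), Finsupp.mapRange_single, mul_assoc]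

lemma wordVec_map_hom {f : R →+* R} (w : List (S × S × R)) (v : S →₀ R) :
    wordVec (w.map fun l => (l.1, l.2.1, f l.2.2)) (v.mapRange f f.map_zero) =
      (wordVec w v).mapRange f f.map_zero := by
  induction w with
  | nil => rfl
  | cons l w ih =>
    simp only [wordVec, List.map_cons, List.foldr_cons] at ih ⊢
    rw [ih]
    simp only [stepVec, Finsupp.mapRange_apply]
    rw [Finsupp.mapRange_add f.map_add, Finsupp.mapRange_single, map_mul]

lemma map_hom_identity (f : R →+* R) (w : List (S × S × R)) (hid : ∀ v, wordVec w v = v)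
    (v : S →₀ R) : wordVec (w.map fun l => (l.1, l.2.1, f l.2.2)) v = v := by
  induction v using Finsupp.induction_linear with
  | zero =>
    have h := wordVec_map_hom (f := f) w 0
    rwa [Finsupp.mapRange_zero, hid, Finsupp.mapRange_zero] at h
  | add p q hp hq => rw [wordVec_add, hp, hq]
  | single i r =>
    have h1 := wordVec_map_hom (f := f) w (Finsupp.single i 1)
    rw [hid, Finsupp.mapRange_single, map_one] at h1
    have h2 := wordVec_mapRange_mul (w.map fun l => (l.1, l.2.1, f l.2.2)) (Finsupp.single i 1) r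
    rwa [h1, Finsupp.mapRange_single, one_mul] at h2

/-- The pairing of a row with a column. -/
def dotVec (v u : S →₀ R) : R := v.sum fun i s => s * u i

lemma dotVec_single_right (v : S →₀ R) (i : S) : dotVec v (Finsupp.single i 1) = v i := by
  rw [dotVec, Finsupp.sum_eq_single i (fun j _ hj => by
    rw [Finsupp.single_eq_of_ne hj, mul_zero]) (fun _ => zero_mul _)]
  rw [Finsupp.single_eq_same, mul_one]

/-- The action of a letter on row vectors. -/
noncomputable def rowStep (a b : S) (r : R) (v : S →₀ R) : S →₀ R :=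
  v + Finsupp.single b (v a * r)

lemma dotVec_rowStep (a b : S) (r : R) (v u : S →₀ R) :
    dotVec (rowStep a b r v) u = dotVec v (stepVec a b r u) := by
  have h1 : dotVec (rowStep a b r v) u = dotVec v u + v a * r * u b := by
    rw [dotVec, rowStep, Finsupp.sum_add_index' (fun i => zero_mul _) (fun i p q => add_mul p q _),
      Finsupp.sum_single_index (zero_mul _), dotVec]
  have h2 : dotVec v (stepVec a b r u) = dotVec v u + v.sum fun i s => s *
      Finsupp.single a (r * u b) i := by
    rw [dotVec, dotVec, ← Finsupp.sum_add]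
    exact Finsupp.sum_congr fun i _ => by simp [stepVec, mul_add]
  rw [h1, h2, Finsupp.sum_eq_single a (fun j _ hj => by
    rw [Finsupp.single_eq_of_ne hj, mul_zero]) (fun _ => zero_mul _)]
  rw [Finsupp.single_eq_same, mul_assoc]

/-- The action of a word on row vectors, by conjugation. -/
noncomputable def rowWord (w : List (S × S × R)) (v : S →₀ R) : S →₀ R :=
  w.foldr (fun l u => rowStep l.1 l.2.1 l.2.2 u) v

lemma dotVec_rowWord (w : List (S × S × R)) (v u : S →₀ R) :
    dotVec (rowWord w v) u = dotVec v (wordVec w.reverse u) := by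
  induction w generalizing u with
  | nil => rfl
  | cons l w ih =>
    simp only [rowWord, wordVec, List.foldr_cons, List.reverse_cons, List.foldr_append,
      List.foldr_nil] at ih ⊢
    rw [dotVec_rowStep, ih]

lemma rowWord_identity (h2 : (2 : R) = 0) (w : List (S × S × R)) (hd : ∀ l ∈ w, l.1 ≠ l.2.1)
    (hid : ∀ v, wordVec w v = v) (v : S →₀ R) : rowWord w v = v := by
  ext i
  have h := wordVec_reverse h2 w hd (Finsupp.single i 1)
  rw [hid] at h
  have := dotVec_rowWord w v (Finsupp.single i 1)
  rwa [h, dotVec_single_right, dotVec_single_right] at this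

end Action

section Column

variable (hx : IsSteinberg x) (c : S)

/-- The subgroup of one column. -/
def colGroup : Subgroup G :=
  Subgroup.closure (Set.range fun p : {a : S // a ≠ c} × R => x p.1 c p.2)

/-- The subgroup of one row. -/
def rowGroup : Subgroup G :=
  Subgroup.closure (Set.range fun p : {a : S // a ≠ c} × R => x c p.1 p.2)

include hx

lemma colGroup_comm (g g' : colGroup (x := x) c) : g * g' = g' * g := by
  have := Subgroup.isMulCommutative_closure (k := Set.range
    fun p : {a : S // a ≠ c} × R => x p.1 c p.2) (by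
      rintro _ ⟨p, rfl⟩ _ ⟨q, rfl⟩
      exact (hx.comm _ _ _ _ _ _ p.1.2 q.1.2 (Ne.symm q.1.2) p.1.2).eq)
  exact this.is_comm.comm g g'

lemma rowGroup_comm (g g' : rowGroup (x := x) c) : g * g' = g' * g := by
  have := Subgroup.isMulCommutative_closure (k := Set.range
    fun p : {a : S // a ≠ c} × R => x c p.1 p.2) (by
      rintro _ ⟨p, rfl⟩ _ ⟨q, rfl⟩
      exact (hx.comm _ _ _ _ _ _ (Ne.symm p.1.2) (Ne.symm q.1.2) p.1.2 (Ne.symm q.1.2)).eq)
  exact this.is_comm.comm g g'

/-- A column is an additive map into the group. -/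
lemma exists_colMap : ∃ col : (S →₀ R) → G, col 0 = 1 ∧
    (∀ v v', col (v + v') = col v * col v') ∧
    ∀ i, i ≠ c → ∀ r, col (Finsupp.single i r) = x i c r := by
  classical
  letI : CommGroup (colGroup (x := x) c) := { mul_comm := colGroup_comm hx c }
  let f : S → R →+ Additive (colGroup (x := x) c) := fun i =>
    if h : i = c then 0 else
      AddMonoidHom.mk' (fun r => Additive.ofMul
        ⟨x i c r, Subgroup.subset_closure ⟨(⟨i, h⟩, r), rfl⟩⟩)
        fun r s => Additive.toMul.injective (Subtype.ext (hx.add i c r s h))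
  refine ⟨fun v => ((Additive.toMul (Finsupp.liftAddHom f v) : colGroup (x := x) c) : G),
    by simp, fun v v' => by simp, fun i hi r => ?_⟩
  simp only [Finsupp.liftAddHom_apply_single]
  simp [f, dif_neg hi]

/-- A row is an additive map into the group. -/
lemma exists_rowMap : ∃ row : (S →₀ R) → G, row 0 = 1 ∧
    (∀ v v', row (v + v') = row v * row v') ∧
    ∀ i, i ≠ c → ∀ r, row (Finsupp.single i r) = x c i r := by
  classical
  letI : CommGroup (rowGroup (x := x) c) := { mul_comm := rowGroup_comm hx c }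
  let f : S → R →+ Additive (rowGroup (x := x) c) := fun i =>
    if h : i = c then 0 else
      AddMonoidHom.mk' (fun r => Additive.ofMul
        ⟨x c i r, Subgroup.subset_closure ⟨(⟨i, h⟩, r), rfl⟩⟩)
        fun r s => Additive.toMul.injective (Subtype.ext (hx.add c i r s (Ne.symm h)))
  refine ⟨fun v => ((Additive.toMul (Finsupp.liftAddHom f v) : rowGroup (x := x) c) : G),
    by simp, fun v v' => by simp, fun i hi r => ?_⟩
  simp only [Finsupp.liftAddHom_apply_single]
  simp [f, dif_neg hi]

end Column

section Central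

variable [DecidableEq S] (hx : IsSteinberg x) (h2 : (2 : R) = 0)
include hx h2

lemma conj_letter_col {c a b i : S} (r s : R) (hab : a ≠ b) (hac : a ≠ c) (hbc : b ≠ c)
    (hic : i ≠ c) {col : (S →₀ R) → G} (hadd : ∀ v v', col (v + v') = col v * col v')
    (h0 : col 0 = 1) (hs : ∀ i, i ≠ c → ∀ r, col (Finsupp.single i r) = x i c r) :
    x a b r * col (Finsupp.single i s) * (x a b r)⁻¹ =
      col (stepVec a b r (Finsupp.single i s)) := by
  by_cases hib : i = b
  · subst hib
    rw [stepVec, Finsupp.single_eq_same, hadd, hs i hic, hs a hac,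
      hx.conj_left r s hab hbc hac]
    exact (hx.comm a c i c _ s hac hbc (Ne.symm hbc) hac).eq
  · rw [stepVec, Finsupp.single_eq_of_ne (Ne.symm hib), mul_zero, Finsupp.single_zero, add_zero,
      hs i hic, (hx.comm a b i c r s hab hic (Ne.symm hib) hac).eq, mul_inv_cancel_right]

lemma conj_letter_row {c a b i : S} (r s : R) (hab : a ≠ b) (hac : a ≠ c) (hbc : b ≠ c)
    (hic : i ≠ c) {row : (S →₀ R) → G} (hadd : ∀ v v', row (v + v') = row v * row v')
    (h0 : row 0 = 1) (hs : ∀ i, i ≠ c → ∀ r, row (Finsupp.single i r) = x c i r) :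
    x a b r * row (Finsupp.single i s) * (x a b r)⁻¹ =
      row (rowStep a b r (Finsupp.single i s)) := by
  by_cases hia : i = a
  · subst hia
    rw [rowStep, Finsupp.single_eq_same, hadd, hs i hic, hs b hbc,
      hx.conj_right h2 s r (Ne.symm hac) hab (Ne.symm hbc)]
    exact (hx.comm c b c i _ s (Ne.symm hbc) (Ne.symm hac) hbc (Ne.symm hac)).eq
  · rw [rowStep, Finsupp.single_eq_of_ne (Ne.symm hia), zero_mul, Finsupp.single_zero, add_zero,
      hs i hic, (hx.comm a b c i r s hab (Ne.symm hic) hbc (Ne.symm hia)).eq,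
      mul_inv_cancel_right]

lemma conj_col {c : S} (w : List (S × S × R)) (hw : Avoids c w) {col : (S →₀ R) → G}
    (hadd : ∀ v v', col (v + v') = col v * col v') (h0 : col 0 = 1)
    (hs : ∀ i, i ≠ c → ∀ r, col (Finsupp.single i r) = x i c r) (v : S →₀ R) (hv : v c = 0) :
    wordX x w * col v * (wordX x w)⁻¹ = col (wordVec w v) ∧ wordVec w v c = 0 := by
  induction w with
  | nil => exact ⟨by simp [wordX, wordVec], hv⟩
  | cons l w ih =>
    obtain ⟨a, b, r⟩ := l
    obtain ⟨hab, hac, hbc⟩ := hw _ (List.mem_cons_self ..)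
    obtain ⟨ih1, ih2⟩ := ih fun j hj => hw j (List.mem_cons_of_mem _ hj)
    have hstep : ∀ u : S →₀ R, u c = 0 →
        x a b r * col u * (x a b r)⁻¹ = col (stepVec a b r u) := by
      intro u hu
      induction u using Finsupp.induction with
      | zero => simp [stepVec, h0]
      | single_add i s u hi hs0 ihu =>
        have hic : i ≠ c := by
          intro h
          subst h
          rw [Finsupp.add_apply, Finsupp.single_eq_same, Finsupp.notMem_support_iff.1 hi,
            add_zero] at hu
          exact hs0 hu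
        rw [Finsupp.add_apply, Finsupp.single_eq_of_ne (Ne.symm hic), zero_add] at hu
        rw [stepVec_add, hadd, hadd, ← ihu hu,
          ← conj_letter_col hx h2 r s hab hac hbc hic hadd h0 hs]
        group
    refine ⟨?_, ?_⟩
    · calc wordX x ((a, b, r) :: w) * col v * (wordX x ((a, b, r) :: w))⁻¹
          = x a b r * (wordX x w * col v * (wordX x w)⁻¹) * (x a b r)⁻¹ := by
            rw [wordX_cons]; group
        _ = col (stepVec a b r (wordVec w v)) := by rw [ih1, hstep _ ih2]
    · show stepVec a b r (wordVec w v) c = 0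
      rw [stepVec, Finsupp.add_apply, ih2, Finsupp.single_eq_of_ne (Ne.symm hac), add_zero]

lemma conj_row {c : S} (w : List (S × S × R)) (hw : Avoids c w) {row : (S →₀ R) → G}
    (hadd : ∀ v v', row (v + v') = row v * row v') (h0 : row 0 = 1)
    (hs : ∀ i, i ≠ c → ∀ r, row (Finsupp.single i r) = x c i r) (v : S →₀ R) (hv : v c = 0) :
    wordX x w * row v * (wordX x w)⁻¹ = row (rowWord w v) ∧ rowWord w v c = 0 := by
  induction w with
  | nil => exact ⟨by simp [wordX, rowWord], hv⟩
  | cons l w ih =>
    obtain ⟨a, b, r⟩ := l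
    obtain ⟨hab, hac, hbc⟩ := hw _ (List.mem_cons_self ..)
    obtain ⟨ih1, ih2⟩ := ih fun j hj => hw j (List.mem_cons_of_mem _ hj)
    have hstep : ∀ u : S →₀ R, u c = 0 →
        x a b r * row u * (x a b r)⁻¹ = row (rowStep a b r u) := by
      intro u hu
      induction u using Finsupp.induction with
      | zero => simp [rowStep, h0]
      | single_add i s u hi hs0 ihu =>
        have hic : i ≠ c := by
          intro h
          subst h
          rw [Finsupp.add_apply, Finsupp.single_eq_same, Finsupp.notMem_support_iff.1 hi,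
            add_zero] at hu
          exact hs0 hu
        rw [Finsupp.add_apply, Finsupp.single_eq_of_ne (Ne.symm hic), zero_add] at hu
        have e : rowStep a b r (Finsupp.single i s + u) =
            rowStep a b r (Finsupp.single i s) + rowStep a b r u := by
          simp only [rowStep, Finsupp.add_apply, add_mul, Finsupp.single_add]
          abel
        rw [e, hadd, hadd, ← ihu hu, ← conj_letter_row hx h2 r s hab hac hbc hic hadd h0 hs]
        group
    refine ⟨?_, ?_⟩
    · calc wordX x ((a, b, r) :: w) * row v * (wordX x ((a, b, r) :: w))⁻¹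
          = x a b r * (wordX x w * row v * (wordX x w)⁻¹) * (x a b r)⁻¹ := by
            rw [wordX_cons]; group
        _ = row (rowStep a b r (rowWord w v)) := by rw [ih1, hstep _ ih2]
    · show rowStep a b r (rowWord w v) c = 0
      rw [rowStep, Finsupp.add_apply, ih2, Finsupp.single_eq_of_ne (Ne.symm hbc), add_zero]

/-- A word acting as the identity matrix commutes with the family. -/
lemma commute_of_identity [Infinite S] (w : List (S × S × R)) (hd : ∀ l ∈ w, l.1 ≠ l.2.1)
    (hid : ∀ v, wordVec w v = v) {a b : S} (hab : a ≠ b) (r : R) :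
    Commute (wordX x w) (x a b r) := by
  obtain ⟨c, hc⟩ := Infinite.exists_notMem_finset
    (((w.map fun l => l.1) ++ (w.map fun l => l.2.1) ++ [a, b]).toFinset)
  simp only [List.mem_toFinset, List.mem_append, List.mem_map, List.mem_cons, List.not_mem_nil,
    or_false, not_or, not_exists, not_and] at hc
  obtain ⟨⟨hc1, hc2⟩, hca, hcb⟩ := hc
  have hw : Avoids c w := fun l hl => ⟨hd l hl, hc1 l hl, hc2 l hl⟩
  obtain ⟨col, c0, cadd, cs⟩ := exists_colMap hx c
  obtain ⟨row, r0, radd, rs⟩ := exists_rowMap hx c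
  have h1 : Commute (wordX x w) (x a c r) := by
    have h := (conj_col hx h2 w hw cadd c0 cs (Finsupp.single a r)
      (Finsupp.single_eq_of_ne hca)).1
    rw [hid, cs a (Ne.symm hca)] at h
    exact mul_inv_eq_iff_eq_mul.1 h
  have h3 : Commute (wordX x w) (x c b 1) := by
    have h := (conj_row hx h2 w hw radd r0 rs (Finsupp.single b 1)
      (Finsupp.single_eq_of_ne hcb)).1
    rw [rowWord_identity h2 w hd hid, rs b (Ne.symm hcb)] at h
    exact mul_inv_eq_iff_eq_mul.1 h
  have h := hx.chain a c b r 1 (Ne.symm hca) hcb hab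
  rw [mul_one] at h
  rw [← h]
  exact ((h1.mul_right h3).mul_right h1.inv_right).mul_right h3.inv_right

end Central

section Corner

variable [DecidableEq S] (hx : IsSteinberg x) (h2 : (2 : R) = 0) {u v : R} (hvu : v * u = 1)

/-- The monomial element moving the index `a'` to `a`. -/
def swapElt (x : S → S → R → G) (u v : R) (a a' : S) : G :=
  x a a' u * x a' a v * x a a' u

include hx h2

lemma add_self {a b : S} (h : a ≠ b) (r : R) : x a b r * x a b r = 1 := by
  rw [← hx.add a b r r h, ← two_mul, h2, zero_mul, hx.map_zero h]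

include hvu

lemma swapElt_left {a a' c : S} (r : R) (h : a ≠ a') (hac : a ≠ c) (ha'c : a' ≠ c) :
    swapElt x u v a a' * x a' c r * (swapElt x u v a a')⁻¹ = x a c (u * r) := by
  have e1 := hx.conj_left u r h ha'c hac
  have e2 := hx.conj_left v (u * r) (Ne.symm h) hac ha'c
  have e3 : x a' a v * x a' c r * (x a' a v)⁻¹ = x a' c r := by
    rw [(hx.comm a' a a' c v r (Ne.symm h) ha'c h ha'c).eq, mul_inv_cancel_right]
  have e4 : x a a' u * x a c (u * r) * (x a a' u)⁻¹ = x a c (u * r) := by
    rw [(hx.comm a a' a c u (u * r) h hac (Ne.symm h) hac).eq, mul_inv_cancel_right]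
  rw [← mul_assoc v, hvu, one_mul] at e2
  have e5 : Commute (x a' c r) (x a c (u * r)) :=
    hx.comm a' c a c r (u * r) ha'c hac (Ne.symm hac) ha'c
  calc swapElt x u v a a' * x a' c r * (swapElt x u v a a')⁻¹
      = x a a' u * (x a' a v * (x a a' u * x a' c r * (x a a' u)⁻¹) * (x a' a v)⁻¹) *
          (x a a' u)⁻¹ := by rw [swapElt]; group
    _ = x a a' u * ((x a' a v * x a c (u * r) * (x a' a v)⁻¹) *
          (x a' a v * x a' c r * (x a' a v)⁻¹)) * (x a a' u)⁻¹ := by rw [e1]; group
    _ = x a c (u * r) := by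
      rw [e2, e3, mul_assoc (x a' c r), ← e5.eq, ← mul_assoc (x a' c r),
        add_self hx h2 ha'c, one_mul, e4]

lemma swapElt_right {a a' c : S} (r : R) (h : a ≠ a') (hca : c ≠ a) (hca' : c ≠ a') :
    swapElt x u v a a' * x c a' r * (swapElt x u v a a')⁻¹ = x c a (r * v) := by
  have e1 : x a a' u * x c a' r * (x a a' u)⁻¹ = x c a' r := by
    rw [(hx.comm a a' c a' u r h hca' (Ne.symm hca') h).eq, mul_inv_cancel_right]
  have e2 := hx.conj_right h2 r v hca' (Ne.symm h) hca
  have e3 := hx.conj_right h2 (r * v) u hca h hca'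
  rw [mul_assoc r v u, hvu, mul_one] at e3
  have e5 : Commute (x c a' r) (x c a (r * v)) :=
    hx.comm c a' c a r (r * v) hca' hca (Ne.symm hca') hca
  calc swapElt x u v a a' * x c a' r * (swapElt x u v a a')⁻¹
      = x a a' u * (x a' a v * (x a a' u * x c a' r * (x a a' u)⁻¹) * (x a' a v)⁻¹) *
          (x a a' u)⁻¹ := by rw [swapElt]; group
    _ = x a a' u * (x c a (r * v) * x c a' r) * (x a a' u)⁻¹ := by rw [e1, e2]
    _ = (x a a' u * x c a (r * v) * (x a a' u)⁻¹) * (x a a' u * x c a' r * (x a a' u)⁻¹) := by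
      group
    _ = x c a (r * v) := by
      rw [e3, e1, mul_assoc, ← e5.eq, ← mul_assoc, add_self hx h2 hca', one_mul]

omit h2 hvu in
lemma swapElt_comm {a a' c d : S} (r : R) (h : a ≠ a') (hcd : c ≠ d) (hca : c ≠ a) (hca' : c ≠ a')
    (hda : d ≠ a) (hda' : d ≠ a') : Commute (swapElt x u v a a') (x c d r) :=
  ((hx.comm a a' c d u r h hcd (Ne.symm hca') (Ne.symm hda)).mul_left
    (hx.comm a' a c d v r (Ne.symm h) hcd (Ne.symm hca) (Ne.symm hda'))).mul_left
    (hx.comm a a' c d u r h hcd (Ne.symm hca') (Ne.symm hda))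

/-- Products of the monomial elements compress by `u` and `v`. -/
lemma exists_corner (F : Finset S) (f : S → S) (hf : ∀ a ∈ F, f a ∉ F)
    (hinj : Set.InjOn f F) : ∀ T ⊆ F, ∃ P : G,
      (∀ g : G, (∀ a b r, a ≠ b → Commute g (x a b r)) → Commute P g) ∧
      ∀ a ∈ F, ∀ b ∈ F, a ≠ b → ∀ r, P * x (f a) (f b) r * P⁻¹ =
        x (if a ∈ T then a else f a) (if b ∈ T then b else f b)
          ((if a ∈ T then u else 1) * r * (if b ∈ T then v else 1)) := by
  intro T
  induction T using Finset.induction with
  | empty => exact fun _ => ⟨1, fun g _ => Commute.one_left g, fun a _ b _ _ r => by simp⟩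
  | @insert k T hk ih =>
    intro hsub
    rw [Finset.insert_subset_iff] at hsub
    obtain ⟨hkF, hTF⟩ := hsub
    obtain ⟨P, hP1, hP2⟩ := ih hTF
    have hkf : k ≠ f k := fun h => hf k hkF (h ▸ hkF)
    have hne : ∀ b ∈ F, b ≠ k → (if b ∈ T then b else f b) ≠ k ∧
        (if b ∈ T then b else f b) ≠ f k := by
      intro b hb hbk
      split
      · exact ⟨hbk, fun h => hf k hkF (h ▸ hb)⟩
      · exact ⟨fun h => hf b hb (h.symm ▸ hkF), fun h => hbk (hinj hb hkF h)⟩
    refine ⟨swapElt x u v k (f k) * P, fun g hg => ?_, fun a ha b hb hab r => ?_⟩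
    · exact ((((hg k (f k) u hkf).mul_right (hg (f k) k v (Ne.symm hkf))).mul_right
        (hg k (f k) u hkf)).symm).mul_left (hP1 g hg)
    have hmove : swapElt x u v k (f k) * P * x (f a) (f b) r * (swapElt x u v k (f k) * P)⁻¹ =
        swapElt x u v k (f k) * (P * x (f a) (f b) r * P⁻¹) * (swapElt x u v k (f k))⁻¹ := by
      group
    rw [hmove, hP2 a ha b hb hab r]
    by_cases hak : a = k
    · subst hak
      have hb' := hne b hb (Ne.symm hab)
      rw [if_neg hk, if_neg hk, if_pos (Finset.mem_insert_self _ _),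
        if_pos (Finset.mem_insert_self _ _), one_mul,
        swapElt_left hx h2 hvu _ hkf (Ne.symm hb'.1) (Ne.symm hb'.2)]
      simp [Ne.symm hab, mul_assoc]
    by_cases hbk : b = k
    · subst hbk
      have ha' := hne a ha hak
      rw [if_neg hk, if_neg hk, if_pos (Finset.mem_insert_self _ _),
        if_pos (Finset.mem_insert_self _ _), mul_one,
        swapElt_right hx h2 hvu _ hkf ha'.1 ha'.2]
      simp [hak]
    have ha' := hne a ha hak
    have hb' := hne b hb hbk
    have hdis : (if a ∈ T then a else f a) ≠ (if b ∈ T then b else f b) := by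
      split <;> split
      · exact hab
      · exact fun h => hf b hb (h ▸ ha)
      · exact fun h => hf a ha (h.symm ▸ hb)
      · exact fun h => hab (hinj ha hb h)
    rw [(swapElt_comm hx _ hkf hdis ha'.1 ha'.2 hb'.1 hb'.2).eq, mul_inv_cancel_right]
    simp [hak, hbk]

/-- Compression fixes a word acting as the identity. -/
lemma wordX_compress [Infinite S] (w : List (S × S × R)) (hd : ∀ l ∈ w, l.1 ≠ l.2.1)
    (hid : ∀ v, wordVec w v = v) :
    wordX x (w.map fun l => (l.1, l.2.1, u * l.2.2 * v)) = wordX x w := by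
  classical
  let F : Finset S := ((w.map fun l => l.1) ++ (w.map fun l => l.2.1)).toFinset
  have hF : ∀ l ∈ w, l.1 ∈ F ∧ l.2.1 ∈ F := fun l hl =>
    ⟨List.mem_toFinset.2 (List.mem_append_left _ (List.mem_map_of_mem hl)),
      List.mem_toFinset.2 (List.mem_append_right _ (List.mem_map_of_mem hl))⟩
  haveI : Infinite ↥((F : Set S)ᶜ) := F.finite_toSet.infinite_compl.to_subtype
  let e : F ↪ ↥((F : Set S)ᶜ) :=
    (F.equivFin.toEmbedding.trans Fin.valEmbedding).trans (Infinite.natEmbedding _)
  let f : S → S := fun a => if h : a ∈ F then (e ⟨a, h⟩ : S) else a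
  have hf : ∀ a ∈ F, f a ∉ F := fun a ha => by
    simp only [f, dif_pos ha]
    exact (e ⟨a, ha⟩).2
  have hinj : Set.InjOn f F := fun a ha b hb h => by
    simp only [f, dif_pos (Finset.mem_coe.1 ha), dif_pos (Finset.mem_coe.1 hb)] at h
    exact congrArg Subtype.val (e.injective (Subtype.ext h))
  obtain ⟨P, hP1, hP2⟩ := exists_corner hx h2 hvu F f hf hinj F subset_rfl
  obtain ⟨Q, hQ1, hQ2⟩ := exists_corner hx h2 (u := (1 : R)) (v := (1 : R)) (one_mul 1) F f hf
    hinj F subset_rfl
  have hcent : ∀ a b r, a ≠ b → Commute (wordX x w) (x a b r) := fun a b r hab =>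
    commute_of_identity hx h2 w hd hid hab r
  set z' := (w.map fun l => x (f l.1) (f l.2.1) l.2.2).prod with hz'
  have hQz : Q * z' * Q⁻¹ = wordX x w := conj_list_prod Q _ _ w fun l hl => by
    rw [hQ2 _ (hF l hl).1 _ (hF l hl).2 (hd l hl), if_pos (hF l hl).1, if_pos (hF l hl).2,
      if_pos (hF l hl).1, if_pos (hF l hl).2, one_mul, mul_one]
  have hPz : P * z' * P⁻¹ = wordX x (w.map fun l => (l.1, l.2.1, u * l.2.2 * v)) := by
    rw [wordX, List.map_map]
    exact conj_list_prod P _ _ w fun l hl => by
      rw [hP2 _ (hF l hl).1 _ (hF l hl).2 (hd l hl), if_pos (hF l hl).1, if_pos (hF l hl).2,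
        if_pos (hF l hl).1, if_pos (hF l hl).2]
      rfl
  have hz : z' = wordX x w :=
    calc z' = Q⁻¹ * (Q * z' * Q⁻¹) * Q := by group
      _ = wordX x w := by
        rw [hQz, mul_assoc, ← (hQ1 _ hcent).eq, inv_mul_cancel_left]
  rw [← hPz, hz, (hP1 _ hcent).eq, mul_inv_cancel_right]

end Corner

/-- A swindle kills the kernel of a Steinberg family over an infinite index set. -/
theorem swindleGoal : SwindleGoal := by
  intro S R G _ _ _ x h2 hx sw s₀ s₁ t₀ t₁ h00 h11 h01 h10 hsw _ w hd hid
  let w' := w.map fun l => (l.1, l.2.1, sw l.2.2)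
  have hd' : ∀ l ∈ w', l.1 ≠ l.2.1 := by
    intro l hl
    obtain ⟨j, hj, rfl⟩ := List.mem_map.1 hl
    exact hd j hj
  have hid' : ∀ v, wordVec w' v = v := map_hom_identity sw w hid
  have hz0 := wordX_compress hx h2 h00 w hd hid
  have hz1 := wordX_compress hx h2 h11 w' hd' hid'
  have hsplit : wordX x w' =
      wordX x (w.map fun l => (l.1, l.2.1, s₀ * l.2.2 * t₀)) *
        wordX x (w'.map fun l => (l.1, l.2.1, s₁ * l.2.2 * t₁)) := by
    simp only [wordX, w', List.map_map, Function.comp_def]
    rw [← wordX_map_mul]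
    · refine congrArg List.prod (List.map_congr_left fun l hl => ?_)
      rw [← hx.add _ _ _ _ (hd l hl), ← hsw]
    intro i hi j hj
    set p := s₀ * i.2.2 * t₀ with hp
    have hpq : ∀ q : R, p * (s₁ * q) = 0 := fun q => by
      rw [hp, mul_assoc (s₀ * i.2.2), ← mul_assoc t₀, h01, zero_mul, mul_zero]
    have hqp : t₁ * p = 0 := by rw [hp, ← mul_assoc, ← mul_assoc, h10, zero_mul, zero_mul]
    by_cases hcase : i.2.1 = j.1 ∧ i.1 = j.2.1
    · obtain ⟨c, hc⟩ := Infinite.exists_notMem_finset [i.1, i.2.1].toFinset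
      simp only [List.mem_toFinset, List.mem_cons, List.not_mem_nil, or_false, not_or] at hc
      have hb := hd i hi
      have e : x j.1 j.2.1 (s₁ * sw j.2.2 * t₁) = x i.2.1 c (s₁ * sw j.2.2) * x c i.1 t₁ *
          (x i.2.1 c (s₁ * sw j.2.2))⁻¹ * (x c i.1 t₁)⁻¹ := by
        rw [← hcase.1, ← hcase.2]
        exact (hx.chain _ c _ _ _ (Ne.symm hc.2) hc.1 (Ne.symm hb)).symm
      rw [e]
      have hA : Commute (x i.1 i.2.1 p) (x i.2.1 c (s₁ * sw j.2.2)) :=
        hx.comm_of_mul_eq_zero _ _ hb (Ne.symm hc.2) (fun h => Ne.symm hc.1 h.2)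
          (fun _ => hpq _) (fun h => absurd h (Ne.symm hc.1))
      have hB : Commute (x i.1 i.2.1 p) (x c i.1 t₁) :=
        hx.comm_of_mul_eq_zero _ _ hb hc.1 (fun h => hc.2 h.1.symm)
          (fun h => absurd h.symm hc.2) (fun _ => hqp)
      exact ((hA.mul_right hB).mul_right hA.inv_right).mul_right hB.inv_right
    · exact hx.comm_of_mul_eq_zero _ _ (hd i hi) (hd j hj) hcase
        (fun _ => by rw [← mul_assoc, hpq, zero_mul])
        (fun _ => by rw [mul_assoc, hqp, mul_zero])
  rw [hz0, hz1] at hsplit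
  exact mul_eq_right.1 hsplit.symm

end Vale.Agent.P193.Bh
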